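import Vale.Agent.P201.Z.Defs

/-! Closure properties of `Expr`. -/

open Finset

namespace Vale.Agent.P201.Z

variable {p : Pat} {n : ℕ} (σ : Equiv.Perm (Cel p n))

theorem mt_mt' (q : Port p n) : mt σ (mt σ q) = q := by
  obtain ⟨c, b⟩ := q
  cases b <;> simp [mt]

theorem val_append' {A : Type} (l m : List (A × Bool)) : val (l ++ m) = val l * val m :=
  FreeGroup.mul_mk.symm

theorem val_winv' {A : Type} (l : List (A × Bool)) : val (winv l) = (val l)⁻¹ := by
  rw [val, val, FreeGroup.inv_mk]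
  rfl

theorem val_relw (q : Port p n) :
    val (relw σ q) = val (half q) * (val (half (mt σ q)))⁻¹ := by
  rw [relw, val_append', val_winv']

theorem val_relw_mt (q : Port p n) : val (relw σ (mt σ q)) = (val (relw σ q))⁻¹ := by
  rw [val_relw, val_relw, mt_mt', mul_inv_rev, inv_inv]

theorem mk_relw (q : Port p n) : PresentedGroup.mk (rels σ) (val (relw σ q)) = 1 :=
  PresentedGroup.one_of_mem ⟨q, rfl⟩

theorem pch_mt (g : Gp σ) (q : Port p n) : pch σ g (mt σ q) = - pch σ g q := by
  obtain ⟨c, b⟩ := q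
  cases b <;> simp [mt, pch]

/-- left multiplication on the first factor -/
def lm {G A : Type*} [Group G] (g : G) : Equiv.Perm (G × A) :=
  Equiv.prodCongr (Equiv.mulLeft g) (Equiv.refl A)

theorem lm_apply {G A : Type*} [Group G] (g : G) (x : G × A) : lm g x = (g * x.1, x.2) := rfl

theorem lm_mul {G A : Type*} [Group G] (g h : G) : (lm (g * h) : Equiv.Perm (G × A)) = lm g * lm h := by
  ext x
  · simp [lm_apply, Equiv.Perm.mul_apply, mul_assoc]
  · rfl

theorem lm_one {G A : Type*} [Group G] : (lm (1 : G) : Equiv.Perm (G × A)) = 1 := by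
  ext x
  · simp [lm_apply]
  · rfl

theorem lm_pow {G A : Type*} [Group G] (g : G) (i : ℕ) :
    (lm g : Equiv.Perm (G × A)) ^ i = lm (g ^ i) := by
  induction i with
  | zero => rw [pow_zero, pow_zero, lm_one]
  | succ i ih => rw [pow_succ, pow_succ, ih, lm_mul]

theorem pch_lm (g h : Gp σ) (q : Port p n) :
    (pch σ h q).mapDomain (lm g) = pch σ (g * h) q := by
  unfold pch
  split_ifs <;> (rw [Finsupp.mapDomain_single]; rfl)

variable {σ}

theorem Expr.mul {k k' : ℕ} {u u' : FreeGroup (Let p n)} {z z' : Chn σ} (h : Expr σ k u z)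
    (h' : Expr σ k' u' z') : Expr σ (k + k') (u * u') (z + z') := by
  induction h with
  | nil => rwa [zero_add, one_mul, zero_add]
  | cons k u z v q _ ih =>
    have h1 := Expr.cons (k + k') (u * u') (z + z') v q ih
    rw [show k + 1 + k' = k + k' + 1 by omega, mul_assoc, add_assoc (pch σ _ q)]
    exact h1

theorem Expr.conj {k : ℕ} {u : FreeGroup (Let p n)} {z : Chn σ} (h : Expr σ k u z)
    (w : FreeGroup (Let p n)) :
    Expr σ k (w * u * w⁻¹) (z.mapDomain (lm (PresentedGroup.mk (rels σ) w))) := by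
  induction h with
  | nil =>
    rw [mul_one, mul_inv_cancel, Finsupp.mapDomain_zero]
    exact Expr.nil
  | cons k u z v q _ ih =>
    have h1 := Expr.cons k _ _ (w * v) q ih
    rw [Finsupp.mapDomain_add, pch_lm, ← map_mul]
    have h2 : w * (v * val (relw σ q) * v⁻¹ * u) * w⁻¹ =
        w * v * val (relw σ q) * (w * v)⁻¹ * (w * u * w⁻¹) := by group
    rw [h2]
    exact h1

theorem Expr.rel (v : FreeGroup (Let p n)) (q : Port p n) :
    Expr σ 1 (v * val (relw σ q) * v⁻¹) (pch σ (PresentedGroup.mk (rels σ) v) q) := by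
  have h := Expr.cons 0 1 0 v q (Expr.nil (σ := σ))
  rwa [mul_one, add_zero] at h

theorem Expr.inv {k : ℕ} {u : FreeGroup (Let p n)} {z : Chn σ} (h : Expr σ k u z) :
    Expr σ k u⁻¹ (-z) := by
  induction h with
  | nil =>
    rw [inv_one, neg_zero]
    exact Expr.nil
  | cons k u z v q _ ih =>
    have h1 := ih.mul (Expr.rel (σ := σ) v (mt σ q))
    rw [pch_mt, val_relw_mt] at h1
    have h2 : (v * val (relw σ q) * v⁻¹ * u)⁻¹ = u⁻¹ * (v * (val (relw σ q))⁻¹ * v⁻¹) := by group
    rw [h2, neg_add_rev]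
    exact h1

variable (σ)

/-- every element of the kernel is expressed by relators -/
theorem Expr.of_ker {u : FreeGroup (Let p n)} (hu : PresentedGroup.mk (rels σ) u = 1) :
    ∃ k z, Expr σ k u z := by
  let N : Subgroup (FreeGroup (Let p n)) :=
    { carrier := {u | ∃ k z, Expr σ k u z}
      mul_mem' := fun ⟨k, z, h⟩ ⟨k', z', h'⟩ => ⟨k + k', z + z', h.mul h'⟩
      one_mem' := ⟨0, 0, Expr.nil⟩
      inv_mem' := fun ⟨k, z, h⟩ => ⟨k, -z, h.inv⟩ }
  have : N.Normal := ⟨fun u ⟨k, z, h⟩ w => ⟨k, _, h.conj w⟩⟩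
  have hle : Subgroup.normalClosure (rels σ) ≤ N := by
    refine Subgroup.normalClosure_le_normal ?_
    rintro _ ⟨q, rfl⟩
    have h := Expr.rel (σ := σ) 1 q
    rw [one_mul, inv_one, mul_one] at h
    exact ⟨1, _, h⟩
  exact hle (PresentedGroup.mk_eq_one_iff.mp hu)

variable {σ}

theorem Expr.unique (hA : ∀ k z, Expr σ k 1 z → z = 0) {k k' : ℕ} {u : FreeGroup (Let p n)}
    {z z' : Chn σ} (h : Expr σ k u z) (h' : Expr σ k' u z') : z = z' := by
  have h1 := h.mul h'.inv
  rw [mul_inv_cancel] at h1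
  have h2 := hA _ _ h1
  rw [← sub_eq_add_neg] at h2
  exact sub_eq_zero.mp h2

end Vale.Agent.P201.Z
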