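import Vale.Agent.P201.Z.G.G1
import Vale.Agent.P201.Z.G2

/-! Part G. -/

namespace Vale.Agent.P201.Z

/-- PART G. -/
theorem stmtG : StmtG := by
  intro p hp n hn Y σ h1 h2
  exact ⟨TF.torsion_free σ h1, G1.zero_div σ hp hn Y h2⟩

end Vale.Agent.P201.Z
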