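import Vale.Agent.P201.Z.Defs

/-! Part G1: the zero divisors of the group ring. -/

namespace Vale.Agent.P201.Z.G1

open Finset Vale.Agent.P201.Z

variable {p : Pat} {n : ℕ} (σ : Equiv.Perm (Cel p n))

/-- image of a letter in the group -/
noncomputable def gl (l : Let p n) : Gp σ := PresentedGroup.of (rels := rels σ) l

/-- the group ring -/
abbrev GR : Type := MonoidAlgebra (ZMod 2) (Gp σ)

/-- group elements in the group ring -/
noncomputable def em (g : Gp σ) : GR σ := MonoidAlgebra.of (ZMod 2) (Gp σ) g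

/-- substitution of `t` in Laurent polynomials -/
noncomputable def ph : AddMonoidAlgebra (ZMod 2) ℤ →ₐ[ZMod 2] GR σ :=
  AddMonoidAlgebra.lift (ZMod 2) (GR σ) ℤ
    ((MonoidAlgebra.of (ZMod 2) (Gp σ)).comp (zpowersHom (Gp σ) (gl σ Let.t)))

theorem ph_single (h : ℤ) (r : ZMod 2) :
    ph σ (AddMonoidAlgebra.single h r) = r • em σ (gl σ Let.t ^ h) := by
  rw [ph, AddMonoidAlgebra.lift_single]
  simp [em]

theorem zmod2_of_ne {r : ZMod 2} (h : r ≠ 0) : r = 1 := by
  revert h; revert r; decide

theorem ph_eq (f : AddMonoidAlgebra (ZMod 2) ℤ) :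
    ph σ f = ∑ h ∈ f.coeff.support, em σ (gl σ Let.t ^ h) := by
  have h1 : f = ∑ h ∈ f.coeff.support, AddMonoidAlgebra.single h (f.coeff h) := by
    apply AddMonoidAlgebra.coeff_injective
    rw [AddMonoidAlgebra.coeff_sum]
    simp only [AddMonoidAlgebra.coeff_single]
    exact (Finsupp.sum_single f.coeff).symm
  conv_lhs => rw [h1]
  rw [map_sum]
  refine Finset.sum_congr rfl fun h hh => ?_
  rw [ph_single, zmod2_of_ne (Finsupp.mem_support_iff.1 hh), one_smul]

/-- the element of a port -/
noncomputable def te (q : Port p n) : Gp σ :=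
  gl σ (Let.x (row q.1) q.2) * gl σ Let.t ^ (ht q.1) * gl σ (Let.y (blk q.1))

theorem mk_tw (h : ℤ) : PresentedGroup.mk (rels σ) (val (tw p n h)) = gl σ Let.t ^ h := by
  have h1 : val (tw p n h) = FreeGroup.of (Let.t : Let p n) ^ h := by
    unfold val tw
    have h2 : ∀ (m : ℕ) (b : Bool), (FreeGroup.mk (List.replicate m ((Let.t : Let p n), b))) =
        (FreeGroup.mk [((Let.t : Let p n), b)]) ^ m := by
      intro m b
      induction m with
      | zero => rfl
      | succ m ih => rw [List.replicate_succ, pow_succ', ← ih, FreeGroup.mul_mk]; rfl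
    rw [h2]
    rcases le_or_gt 0 h with hh | hh
    · rw [decide_eq_true hh]
      obtain ⟨m, rfl⟩ := Int.eq_ofNat_of_zero_le hh
      simp [FreeGroup.of]
    · rw [decide_eq_false (not_le.2 hh)]
      obtain ⟨m, rfl⟩ := Int.exists_eq_neg_ofNat hh.le
      have h3 : (FreeGroup.mk [((Let.t : Let p n), false)]) = (FreeGroup.of Let.t)⁻¹ := by
        simp [FreeGroup.of, FreeGroup.invRev]
      rw [h3]
      simp
  rw [h1, map_zpow]
  rfl

theorem val_append {A : Type} (l l' : List (A × Bool)) : val (l ++ l') = val l * val l' := by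
  simp [val]

theorem val_winv {A : Type} (l : List (A × Bool)) : val (winv l) = (val l)⁻¹ := by
  simp [val, winv, FreeGroup.invRev]

theorem mk_half (q : Port p n) : PresentedGroup.mk (rels σ) (val (half q)) = te σ q := by
  unfold half te
  have h1 : val ((Let.x (row q.1) q.2, true) :: (tw p n (ht q.1) ++ [(Let.y (blk q.1), true)])) =
      FreeGroup.of (Let.x (row q.1) q.2) * val (tw p n (ht q.1)) *
        FreeGroup.of (Let.y (blk q.1)) := by
    rw [← List.singleton_append, val_append, val_append, ← mul_assoc]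
    rfl
  rw [h1, map_mul, map_mul, mk_tw]
  rfl

theorem te_mt (q : Port p n) : te σ (mt σ q) = te σ q := by
  have h1 : PresentedGroup.mk (rels σ) (val (relw σ q)) = 1 := by
    apply (PresentedGroup.mk_eq_one_iff).2
    exact Subgroup.subset_normalClosure ⟨q, rfl⟩
  unfold relw at h1
  rw [val_append, val_winv, map_mul, map_inv, mk_half, mk_half, mul_inv_eq_one] at h1
  exact h1.symm

/-- left factor -/
noncomputable def al : GR σ := ∑ i : p.I, ∑ a : Bool, em σ (gl σ (Let.x i a)) * ph σ (p.P i)

/-- right factor -/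
noncomputable def be : GR σ := ∑ j : Blk p n, ph σ (p.Q j.1) * em σ (gl σ (Let.y j))

theorem em_mul (g h : Gp σ) : em σ g * em σ h = em σ (g * h) := by
  simp [em]

theorem sum_cel {M : Type} [AddCommMonoid M] (f : Cel p n → M) :
    ∑ c : Cel p n, f c = ∑ i : p.I, ∑ j : Blk p n, ∑ h : {h : ℤ // h ∈ p.N i j.1}, f ⟨(i, j), h⟩ := by
  rw [Fintype.sum_sigma, Fintype.sum_prod_type]

theorem al_be : al σ * be σ = 0 := by
  have h1 : al σ * be σ = ∑ a : Bool, ∑ c : Cel p n, em σ (te σ (c, a)) := by
    unfold al be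
    rw [Finset.sum_comm, Finset.sum_mul]
    refine Finset.sum_congr rfl fun a _ => ?_
    rw [sum_cel, Finset.sum_mul]
    refine Finset.sum_congr rfl fun i _ => ?_
    rw [Finset.mul_sum]
    refine Finset.sum_congr rfl fun j _ => ?_
    rw [mul_assoc, ← mul_assoc (ph σ (p.P i)), ← map_mul, ph_eq, Finset.sum_mul, Finset.mul_sum]
    rw [← Finset.sum_coe_sort]
    refine Finset.sum_congr rfl fun h _ => ?_
    rw [em_mul, em_mul, ← mul_assoc]
    rfl
  rw [h1, Fintype.sum_bool]
  have h2 : ∑ c : Cel p n, em σ (te σ (c, true)) = ∑ c : Cel p n, em σ (te σ (c, false)) := by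
    have h3 : ∀ c : Cel p n, te σ (c, true) = te σ (σ c, false) := by
      intro c
      have := te_mt σ (c, true)
      rw [← this]
      rfl
    simp_rw [h3]
    exact Equiv.sum_comp σ (fun c => em σ (te σ (c, false)))
  rw [h2, ← two_smul (ZMod 2), show (2 : ZMod 2) = 0 from rfl, zero_smul]

/-- augmentation of the group ring -/
noncomputable def au : GR σ →ₐ[ZMod 2] ZMod 2 := MonoidAlgebra.lift (ZMod 2) (ZMod 2) (Gp σ) 1

theorem au_em (g : Gp σ) : au σ (em σ g) = 1 := by
  simp [au, em]

theorem au_ph (f : AddMonoidAlgebra (ZMod 2) ℤ) : au σ (ph σ f) = aug f := by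
  rw [ph_eq, map_sum, aug, Finsupp.sum]
  refine Finset.sum_congr rfl fun h hh => ?_
  rw [au_em, zmod2_of_ne (Finsupp.mem_support_iff.1 hh)]

theorem be_ne (hp : p.Good) (hn : Odd n) : be σ ≠ 0 := by
  intro h
  have h1 : au σ (be σ) = 1 := by
    unfold be
    rw [map_sum]
    have h2 : ∀ j : Blk p n, au σ (ph σ (p.Q j.1) * em σ (gl σ (Let.y j))) = aug (p.Q j.1) := by
      intro j
      rw [map_mul, au_em, au_ph, mul_one]
    simp_rw [h2]
    rw [Fintype.sum_prod_type]
    simp only [Finset.sum_const, Finset.card_univ, Fintype.card_fin]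
    rw [← Finset.smul_sum, hp.aug]
    obtain ⟨m, rfl⟩ := hn
    rw [nsmul_eq_mul, mul_one]
    push_cast
    rw [show (2 : ZMod 2) = 0 from rfl, zero_mul, zero_add]
  rw [h, map_zero] at h1
  exact absurd h1 (by decide)


/-- counting homomorphism -/
noncomputable def cnt (f : Let p n → ℤ) : FreeGroup (Let p n) →* Multiplicative ℤ :=
  FreeGroup.lift (fun a => Multiplicative.ofAdd (f a))

theorem val_tw_cnt (f : Let p n → ℤ) (h : ℤ) :
    cnt f (val (tw p n h)) = Multiplicative.ofAdd (h * f Let.t) := by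
  have h1 : val (tw p n h) = FreeGroup.of (Let.t : Let p n) ^ h := by
    unfold val tw
    have h2 : ∀ (m : ℕ) (b : Bool), (FreeGroup.mk (List.replicate m ((Let.t : Let p n), b))) =
        (FreeGroup.mk [((Let.t : Let p n), b)]) ^ m := by
      intro m b
      induction m with
      | zero => rfl
      | succ m ih => rw [List.replicate_succ, pow_succ', ← ih, FreeGroup.mul_mk]; rfl
    rw [h2]
    rcases le_or_gt 0 h with hh | hh
    · rw [decide_eq_true hh]
      obtain ⟨m, rfl⟩ := Int.eq_ofNat_of_zero_le hh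
      simp [FreeGroup.of]
    · rw [decide_eq_false (not_le.2 hh)]
      obtain ⟨m, rfl⟩ := Int.exists_eq_neg_ofNat hh.le
      have h3 : (FreeGroup.mk [((Let.t : Let p n), false)]) = (FreeGroup.of Let.t)⁻¹ := by
        simp [FreeGroup.of, FreeGroup.invRev]
      rw [h3]
      simp
  rw [h1, map_zpow]
  simp only [cnt, FreeGroup.lift_apply_of]
  rw [← ofAdd_zsmul, smul_eq_mul]

theorem inj3 (Y : ℕ) (hinj : ∀ l : List (Let p n × Bool), (∀ a ∈ l, ∀ j, a.1 ≠ Let.y j) →
      wtw Y l ≤ 2 → PresentedGroup.mk (rels σ) (val l) = 1 → val l = 1)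
    {i i' : p.I} {a a' : Bool} {h h' : ℤ}
    (he : gl σ (Let.x i a) * gl σ Let.t ^ h = gl σ (Let.x i' a') * gl σ Let.t ^ h') :
    i = i' ∧ a = a' ∧ h = h' := by
  set l : List (Let p n × Bool) :=
    (Let.x i a, true) :: (tw p n h ++ winv ((Let.x i' a', true) :: tw p n h')) with hl
  have hval : val l = FreeGroup.of (Let.x i a) * val (tw p n h) *
      (FreeGroup.of (Let.x i' a') * val (tw p n h'))⁻¹ := by
    rw [hl, ← List.singleton_append, val_append, val_append, val_winv, ← List.singleton_append,
      val_append, ← mul_assoc]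
    rfl
  have hmem : ∀ (h : ℤ), ∀ b ∈ tw p n h, b.1 = Let.t := by
    intro h b hb
    unfold tw at hb
    rw [List.mem_replicate] at hb
    rw [hb.2]
  have hwt : ∀ h : ℤ, wtw Y (tw p n h) = 0 := by
    intro h
    unfold wtw
    rw [List.sum_eq_zero]
    intro x hx
    obtain ⟨b, hb, rfl⟩ := List.mem_map.1 hx
    rw [hmem h b hb]
    rfl
  have h1 : val l = 1 := by
    apply hinj
    · intro b hb j hj
      rw [hl] at hb
      simp only [List.mem_cons, List.mem_append, winv, List.map_cons, List.reverse_cons,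
        List.mem_reverse, List.mem_map] at hb
      rcases hb with rfl | hb | hb | hb
      · cases hj
      · rw [hmem h b hb] at hj; cases hj
      · obtain ⟨b', hb', rfl⟩ := hb
        have := hmem h' b' hb'
        simp only at hj
        rw [this] at hj; cases hj
      · simp only [List.not_mem_nil, or_false] at hb
        subst hb
        cases hj
    · have e1 : ∀ (A B : List (Let p n × Bool)), wtw Y (A ++ B) = wtw Y A + wtw Y B := by
        intro A B; simp [wtw]
      have e2 : ∀ (A : List (Let p n × Bool)), wtw Y (winv A) = wtw Y A := by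
        intro A
        simp only [wtw, winv, List.map_reverse, List.map_map, List.sum_reverse]
        rfl
      have e3 : ∀ (b : Let p n × Bool) (A : List (Let p n × Bool)),
          wtw Y (b :: A) = wtl Y b.1 + wtw Y A := by
        intro b A; simp [wtw]
      rw [hl, e3, e1, e2, e3, hwt, hwt]
      simp [wtl]
    · rw [hval, map_mul, map_mul, map_inv, map_mul, mk_tw, mk_tw]
      rw [mul_inv_eq_one]
      exact he
  rw [hval, mul_inv_eq_one] at h1
  have h2 : h = h' := by
    have := congrArg (cnt (fun b => match b with | Let.t => (1 : ℤ) | _ => 0)) h1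
    rw [map_mul, map_mul, val_tw_cnt, val_tw_cnt] at this
    simp only [cnt, FreeGroup.lift_apply_of] at this
    simpa [← ofAdd_add] using this
  classical
  have h3 : Let.x i a = (Let.x i' a' : Let p n) := by
    by_contra hne
    have := congrArg (cnt (fun b => if b = Let.x i a then (1 : ℤ) else 0)) h1
    rw [map_mul, map_mul, val_tw_cnt, val_tw_cnt] at this
    simp only [cnt, FreeGroup.lift_apply_of] at this
    simp [Ne.symm hne] at this
  cases h3
  exact ⟨rfl, rfl, h2⟩

theorem al_ne (hp : p.Good) (Y : ℕ)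
    (hinj : ∀ l : List (Let p n × Bool), (∀ a ∈ l, ∀ j, a.1 ≠ Let.y j) →
      wtw Y l ≤ 2 → PresentedGroup.mk (rels σ) (val l) = 1 → val l = 1) : al σ ≠ 0 := by
  obtain ⟨i0, hi0⟩ := hp.ne
  have h0 : ∃ h0, h0 ∈ (p.P i0).coeff.support := by
    apply Finsupp.support_nonempty_iff.2
    intro h
    exact hi0 (AddMonoidAlgebra.coeff_eq_zero.1 h)
  obtain ⟨h0, hh0⟩ := h0
  intro hz
  have h1 : (al σ).coeff (gl σ (Let.x i0 true) * gl σ Let.t ^ h0) = 1 := by
    classical
    unfold al
    rw [MonoidAlgebra.coeff_sum, Finsupp.finsetSum_apply, Finset.sum_eq_single i0]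
    · rw [MonoidAlgebra.coeff_sum, Finsupp.finsetSum_apply, Finset.sum_eq_single true]
      · rw [ph_eq, Finset.mul_sum, MonoidAlgebra.coeff_sum, Finsupp.finsetSum_apply,
          Finset.sum_eq_single h0]
        · rw [em_mul]
          simp [em]
        · intro h _ hne
          rw [em_mul]
          simp only [em, MonoidAlgebra.of_apply, MonoidAlgebra.coeff_single]
          apply Finsupp.single_eq_of_ne
          intro he
          exact hne (inj3 σ Y hinj he).2.2.symm
        · intro h; exact absurd hh0 h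
      · intro a _ hne
        rw [ph_eq, Finset.mul_sum, MonoidAlgebra.coeff_sum, Finsupp.finsetSum_apply]
        apply Finset.sum_eq_zero
        intro h _
        rw [em_mul]
        simp only [em, MonoidAlgebra.of_apply, MonoidAlgebra.coeff_single]
        apply Finsupp.single_eq_of_ne
        intro he
        exact hne (inj3 σ Y hinj he).2.1.symm
      · intro h; exact absurd (Finset.mem_univ _) h
    · intro i _ hne
      rw [MonoidAlgebra.coeff_sum, Finsupp.finsetSum_apply]
      apply Finset.sum_eq_zero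
      intro a _
      rw [ph_eq, Finset.mul_sum, MonoidAlgebra.coeff_sum, Finsupp.finsetSum_apply]
      apply Finset.sum_eq_zero
      intro h _
      rw [em_mul]
      simp only [em, MonoidAlgebra.of_apply, MonoidAlgebra.coeff_single]
      apply Finsupp.single_eq_of_ne
      intro he
      exact hne (inj3 σ Y hinj he).1.symm
    · intro h; exact absurd (Finset.mem_univ _) h
  rw [hz] at h1
  simp at h1

/-- Part G1. -/
theorem zero_div (hp : p.Good) (hn : Odd n) (Y : ℕ)
    (hinj : ∀ l : List (Let p n × Bool), (∀ a ∈ l, ∀ j, a.1 ≠ Let.y j) →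
      wtw Y l ≤ 2 → PresentedGroup.mk (rels σ) (val l) = 1 → val l = 1) :
    ∃ a b : MonoidAlgebra (ZMod 2) (Gp σ), a ≠ 0 ∧ b ≠ 0 ∧ a * b = 0 :=
  ⟨al σ, be σ, al_ne σ hp Y hinj, be_ne σ hp hn, al_be σ⟩

end Vale.Agent.P201.Z.G1
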